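import Vale.Agent.P281Z.Gt.SkT
import Vale.Agent.P281Z.Ri.Grf
import Vale.Agent.P281Z.Mf.Fib

/-!
# P281Z, block III: generically finite maps are coverings
-/

open scoped Manifold ContDiff Topology
open Set Filter Function
open Vale.Agent.P272.K Vale.Agent.P285.H281.FD
open Vale.Agent.P277Z.Slc (Snc)

noncomputable section

namespace Vale.Agent.P281Z.Gt

namespace CovH

variable {n : ℕ} {V Y : Mf n} {f : V.X → Y.X}

theorem lh (hf : HolM n n f) : IsLocalHomeomorphOn f {x | Imm n n f x} := by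
  refine (isLocalHomeomorphOn_iff_isOpenEmbedding_restrict _).2 fun x hx => ?_
  obtain ⟨U, h1, h2⟩ := Imm.inj hx (hf.at x)
  obtain ⟨O, k1, k2, k3⟩ := mem_nhds_iff.1 (inter_mem h1 (Imm.near hx (hf.at x)))
  refine ⟨O, k2.mem_nhds k3, .of_continuous_injective_isOpenMap
    (hf.cont.comp continuous_subtype_val) (injOn_iff_injective.1 (h2.mono fun _ a => (k1 a).1))
    (isOpenMap_iff_nhds_le.2 fun z => ?_)⟩
  rw [show O.domRestrict f = f ∘ Subtype.val from rfl, ← Filter.map_map,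
    k2.isOpenEmbedding_subtypeVal.map_nhds_eq, (imm_iff_sbm.1 (k1 z.2).2).map_nhds (hf.at _)]
  rfl

theorem loc (hf : HolM n n f) {y : Y.X} (h : ∀ x, f x = y → Imm n n f x) :
    ∃ σ : Fin (Nat.card (f ⁻¹' {y})) → Y.X → V.X, (∀ i, HolA n n (σ i) y) ∧ ∀ᶠ y' in 𝓝 y,
      Injective (fun i => σ i y') ∧ range (fun i => σ i y') = f ⁻¹' {y'} := by
  have : Finite (f ⁻¹' {y}) := (isClosed_singleton.preimage hf.cont).isCompact.finite
    (.of_openPartialHomeomorph f subset_rfl fun x hx => (lh hf x (h x hx)).imp fun _ k =>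
      ⟨k.1, k.2.symm⟩)
  let e := (Finite.equivFin (f ⁻¹' {y})).symm
  choose σ h1 h2 _ h3 h4 using fun i => (h (e i) (e i).2).inv (hf.at _)
  have h5 : ∀ i, f (e i) = y := fun i => (e i).2
  simp only [h5] at h1 h2 h4
  refine ⟨σ, h2, ?_⟩
  filter_upwards [eventually_all.2 h4, hf.cont.isClosedMap.eventually_nhds_fiber
    (p := fun z => ∃ i, σ i (f z) = z) y fun x hx => by
      have k := h3 (e.symm ⟨x, hx⟩)
      rw [congrArg Subtype.val (e.apply_symm_apply ⟨x, hx⟩)] at k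
      exact k.mono fun _ k => ⟨_, k⟩,
    eventually_all.2 fun i => eventually_all.2 fun j => eventually_imp_distrib_left.2
      fun k : i ≠ j => ((h2 i).cont.ne_iff_eventually_ne (h2 j).cont).1 fun c =>
        k (e.injective (Subtype.ext ((h1 i).symm.trans (c.trans (h1 j)))))] with y' a b c
  refine ⟨fun i j k => of_not_not fun l => c i j l k, (range_subset_iff.2 a).antisymm fun x hx => ?_⟩
  obtain ⟨i, k⟩ := b x hx
  exact ⟨i, by rwa [show f x = y' from hx] at k⟩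

end CovH

/-- **VERT** -/
theorem vert_of (hR : Rs.RES) (hG : GEN) : VERT := fun n p V Y f S hf hS =>
  (Ri.fub_of hR hG n p V Y f S hf hS).imp fun _ h =>
    ⟨h.1, fun x hx => mem_closure_iff_frequently.2 (h.2 x hx)⟩

open CovH in
/-- **COV** -/
theorem cov_of (hR : Rs.RES) (hG : GEN) : COV := by
  intro n V Y f S hf hY hS
  have h0 : Snc n (fun l : Empty => (l.elim : Set V.X)) := fun _ =>
    ⟨fun l => l.elim, fun l => l.elim, fun l => l.1.elim, fun _ _ => linearIndependent_empty_type⟩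
  obtain ⟨Q₀, h1, h2⟩ := hG n n V Y f Empty _ hf h0
  obtain ⟨Q₁, h3, h4⟩ := Ri.fub_of hR hG n n V Y f S hf hS
  have h5 := h1.union h3
  have h6 : ∀ x, f x ∉ Q₀ ∪ Q₁ → Imm n n f x := fun x hx =>
    imm_iff_sbm.2 ((h2 _ fun k => hx (.inl k)).sbm hf h0 rfl)
  have h7 := fun y (hy : y ∉ Q₀ ∪ Q₁) => loc hf (y := y) fun x hx => h6 x (hx ▸ hy)
  obtain ⟨y₀, hy₀⟩ := h5.2.nonempty
  have h8 : ∀ y ∉ Q₀ ∪ Q₁, Nat.card (f ⁻¹' {y}) = Nat.card (f ⁻¹' {y₀}) := fun y hy =>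
    h5.preconn.constant (f := fun y => Nat.card (f ⁻¹' {y})) (fun z hz => by
      obtain ⟨σ, -, k⟩ := h7 z hz
      refine ((continuousAt_const (y := Nat.card (f ⁻¹' {z}))).congr
        (k.mono fun w a => ?_)).continuousWithinAt
      exact ((congrArg (fun s : Set V.X => Nat.card s) a.2).symm.trans
        ((Nat.card_range_of_injective a.1).trans (Nat.card_fin _))).symm) hy hy₀
  have h9 : Cvg n f (Q₀ ∪ Q₁) (Nat.card (f ⁻¹' {y₀})) := fun y hy => h8 y hy ▸ h7 y hy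
  refine ⟨_, _, h5, ?_, h6, h9, .of_isLocalHomeomorphOn hf.cont ((lh hf).mono h6), ?_⟩
  · rintro _ ⟨x, hx, rfl⟩
    by_contra k
    obtain ⟨U, k1, k2⟩ := (h6 x k).inj (hf.at x)
    obtain ⟨z, ⟨a, b⟩, c⟩ := ((h4 x fun l => k (.inr l)).and_eventually k1).exists
    exact b (k2 c (mem_of_mem_nhds k1) a ▸ hx)
  · rintro ⟨x, hx⟩
    obtain ⟨z, hz⟩ := ((imm_iff_sbm.1 hx).freq (hf.at x)
      (mem_closure_iff_frequently.1 (h5.2 (f x)))).exists
    obtain ⟨σ, -, k⟩ := h9 _ hz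
    obtain ⟨i, -⟩ := k.self_of_nhds.2.ge (rfl : z ∈ f ⁻¹' {f z})
    exact i.pos

end Vale.Agent.P281Z.Gt
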