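import Vale.Agent.P281Z.Gt.SkT
import Vale.Agent.P281Z.Fi.Mgr
import Vale.Agent.P281Z.Pb.Ps
import Vale.Agent.P299.H908.Siegel

/-!
# P281Z, tools for block III: the theorem of Siegel, hypersurfaces through thin sets
-/

open scoped Manifold ContDiff Topology
open Set Filter Function MvPolynomial
open Vale.Agent.P272.K Vale.Agent.P285.H281.FD
open Vale.Agent.P277Z (Hol)

noncomputable section

namespace Vale.Agent.P281Z.Gt

namespace SiegA

/-- the lemma of Siegel for sections of a line bundle -/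
theorem siegB {n : ℕ} (V : Mf n) {L : Bd V.X} (hL : IsLB n L) (s : Fin (n + 2) → L.ι → V.X → ℂ)
    (hs : ∀ i, IsSec n L (s i)) : ∃ p : MvPolynomial (Fin (n + 1)) ℂ, p ≠ 0 ∧
      ∀ h, ∀ x ∈ L.U h, s 0 h x ≠ 0 → eval (fun i => s i.succ h x / s 0 h x) p = 0 := by
  cases isEmpty_or_nonempty V.X
  · exact ⟨1, one_ne_zero, fun _ x => isEmptyElim x⟩
  choose idx hidx using hL.cover
  let c : V.X → Chart n V.X := fun x => (chartAt (Cm n) x).restrOpen (L.U (idx x)) (hL.isOpen _)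
  have hc : ∀ x, x ∈ (c x).source := fun x => ⟨mem_chart_source _ x, hidx x⟩
  let h : Chart n V.X → L.ι := fun e => idx (invFun c e)
  have hU : ∀ e ∈ range c, ∀ x ∈ e.source, x ∈ L.U (h e) := fun e he x hx => by
    rw [← invFun_eq he] at hx
    exact hx.2
  have hA : ∀ i, ∀ e ∈ range c, ∀ x ∈ e.source,
      AnalyticAt ℂ (fun z => s i (h e) (e.symm z)) (e x) := fun i e he x hx => by
    have k := hU e he x hx
    obtain ⟨a, rfl⟩ := he
    exact ((hs i).holo _ (chartAt (Cm n) a) x ⟨chart_mem_atlas _ a, hx.1⟩ k).analyticAt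
  have hT : ∀ i, ∀ e ∈ range c, ∀ e' ∈ range c, ∀ x ∈ e.source, x ∈ e'.source →
      s i (h e) (e.symm (e x)) = L.g (h e) (h e') x * s i (h e') (e'.symm (e' x)) :=
    fun i e he e' he' x hx hx' => by
      rw [e.left_inv hx, e'.left_inv hx']
      exact (hs i).change _ _ x (hU e he x hx) (hU e' he' x hx')
  have hC : ∀ e ∈ range c, ∀ e' ∈ range c, ∀ x ∈ e.source, x ∈ e'.source →
      ContinuousAt (L.g (h e) (h e')) x := fun e he e' he' x hx hx' =>
    Hol.cont (n := n) fun e₀ k =>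
      (hL.holo _ _ e₀ x k (hU e he x hx) (hU e' he' x hx')).analyticAt
  obtain ⟨p, hp, k⟩ := @P299.H908.siegel n V.X _ ⟨range c, c, hc, mem_range_self⟩ _ _
    (fun i e z => s i.succ (h e) (e.symm z)) (fun e z => s 0 (h e) (e.symm z))
    (fun i e x he => hA _ e he.1 x he.2) (fun e x he => hA _ e he.1 x he.2)
    (fun e e' => L.g (h e) (h e')) (fun e e' x he he' => hC e he.1 e' he'.1 x he.2 he'.2)
    (fun i e e' x he he' => hT _ e he.1 e' he'.1 x he.2 he'.2)
    (fun e e' x he he' => hT _ e he.1 e' he'.1 x he.2 he'.2)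
  refine ⟨p, hp, fun a x hx h0 => ?_⟩
  have k1 := hU _ (mem_range_self x) x (hc x)
  have k2 := k (c x) x ⟨mem_range_self x, hc x⟩
  simp only [(c x).left_inv (hc x)] at k2
  have k3 : ∀ i, s i a x = L.g a (h (c x)) x * s i (h (c x)) x := fun i =>
    (hs i).change _ _ x hx k1
  simp only [k3, mul_div_mul_left _ _ (hL.ne_zero _ _ x hx k1)]
  exact k2 (right_ne_zero_of_mul (k3 0 ▸ h0))

theorem eval_smul {σ : Type} {φ : MvPolynomial σ ℂ} {k : ℕ} (h : φ.IsHomogeneous k) (c : ℂ)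
    (w : σ → ℂ) : eval (fun i => c * w i) φ = c ^ k * eval w φ := by
  rw [eval_eq, eval_eq, Finset.mul_sum]
  refine Finset.sum_congr rfl fun m hm => ?_
  simp only [mul_pow]
  rw [Finset.prod_mul_distrib, Finset.prod_pow_eq_pow_sum, ← h.degree_eq_sum_deg_support hm]
  ring

/-- homogenization -/
theorem homog {d r : ℕ} {f : Fin d → Fin (r + 1)} (hf : Injective f) (h0 : ∀ i, f i ≠ 0)
    {p : MvPolynomial (Fin d) ℂ} (hp : p ≠ 0) :
    ∃ (σ : MvPolynomial (Fin (r + 1)) ℂ) (D : ℕ), σ ≠ 0 ∧ σ.IsHomogeneous D ∧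
      ∀ v : Fin (r + 1) → ℂ, (v 0 ≠ 0 → eval (fun i => v (f i) / v 0) p = 0) → eval v σ = 0 := by
  let D := p.totalDegree
  let σ : MvPolynomial (Fin (r + 1)) ℂ := ∑ k ∈ Finset.range (D + 1),
    X 0 ^ (D + 1 - k) * rename f (homogeneousComponent k p)
  have h1 : ∀ v : Fin (r + 1) → ℂ, eval v σ = ∑ k ∈ Finset.range (D + 1),
      v 0 ^ (D + 1 - k) * eval (fun i => v (f i)) (homogeneousComponent k p) := fun v => by
    simp only [σ, map_sum, map_mul, map_pow, eval_X, eval_rename]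
    rfl
  have h2 : ∀ v : Fin (r + 1) → ℂ, v 0 ≠ 0 →
      eval v σ = v 0 ^ (D + 1) * eval (fun i => v (f i) / v 0) p := fun v hv => by
    conv_rhs => rw [← sum_homogeneousComponent p, map_sum, Finset.mul_sum]
    rw [h1]
    refine Finset.sum_congr rfl fun k hk => ?_
    have e : (fun i => v (f i)) = fun i => v 0 * (v (f i) / v 0) :=
      funext fun i => (mul_div_cancel₀ _ hv).symm
    rw [e, eval_smul (homogeneousComponent_isHomogeneous k p), ← mul_assoc, ← pow_add,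
      Nat.sub_add_cancel (Finset.mem_range.1 hk).le]
  refine ⟨σ, D + 1, fun h => hp (MvPolynomial.funext fun w => ?_), ?_, fun v hv => ?_⟩
  · have e0 : extend f w (fun _ => (1 : ℂ)) 0 = 1 :=
      extend_apply' _ _ _ fun ⟨i, hi⟩ => h0 i hi
    have k := h2 (extend f w fun _ => 1) (e0.trans_ne one_ne_zero)
    simp only [h, e0, hf.extend_apply, div_one, one_pow, one_mul, map_zero] at k
    rw [map_zero]
    exact k.symm
  · refine IsHomogeneous.sum _ _ _ fun k hk => ?_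
    have k1 := ((isHomogeneous_X ℂ (0 : Fin (r + 1))).pow (D + 1 - k)).mul
      ((homogeneousComponent_isHomogeneous k p).rename_isHomogeneous (f := f))
    rwa [one_mul, Nat.sub_add_cancel (Finset.mem_range.1 hk).le] at k1
  · by_cases h : v 0 = 0
    · rw [h1]
      refine Finset.sum_eq_zero fun k hk => ?_
      rw [h, zero_pow (Nat.sub_ne_zero_of_lt (Finset.mem_range.1 hk)), zero_mul]
    · rw [h2 v h, hv h, mul_zero]

/-- the image of a manifold of small dimension is contained in a hypersurface -/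
theorem hyp {d r : ℕ} (hd : d < r) (P : PS r) (V : Mf d) {π : V.X → P.P.X} (hπ : HolM d r π) :
    ∃ (σ : MvPolynomial (Fin (r + 1)) ℂ) (D : ℕ), σ ≠ 0 ∧ σ.IsHomogeneous D ∧
      ∀ y, eval (P.hx (π y)) σ = 0 := by
  have hl : d + 2 ≤ r + 1 := by omega
  obtain ⟨p, hp, k⟩ := siegB V (hπ.lb P.lb) (fun i h y => P.x h (π y) (Fin.castLE hl i))
    fun i => hπ.sec (P.sec _)
  obtain ⟨σ, D, a, b, c⟩ := homog (f := fun i : Fin (d + 1) => Fin.castLE hl i.succ)
    ((Fin.castLE_injective hl).comp (Fin.succ_injective _))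
    (fun i h => Nat.succ_ne_zero i (congrArg Fin.val h)) hp
  exact ⟨σ, D, a, b, fun y => c _ (k _ y (P.lb.cover (π y)).choose_spec)⟩

end SiegA

open SiegA

/-- **SIEG** -/
theorem sieg_of (hR : RES) : SIEG := by
  intro n V S g hS hg
  obtain ⟨P⟩ := Pb.psex (n + 1)
  obtain ⟨V', μ, φ, a, b, c, -⟩ := Fi.merm hR P hS (fun j x => (hg j).mer x) fun j => (hg j).hol
  obtain ⟨p, hp, k⟩ := siegB V' (b.lb P.lb) (fun i h y => P.x h (φ y) i) fun i => b.sec (P.sec i)
  refine ⟨p, hp, fun x hx => ?_⟩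
  obtain ⟨y, rfl⟩ := a.ex hx
  obtain ⟨h, hh⟩ := P.lb.cover (φ y)
  have k1 := k h y hh
  rw [c y hx] at hh
  simp only [c y hx, P.ratio (Fi.vec_ne _) hh] at k1
  have k2 := k1 ((P.x_ne_iff (Fi.vec_ne _) hh 0).2 one_ne_zero)
  simpa only [Fi.vec, Fin.cons_succ, Fin.cons_zero, div_one] using k2

/-- **DOM** -/
theorem dom_of (hR : RES) : DOM := by
  intro r P B hB
  obtain ⟨C, k1, -, k3, k4⟩ := Ana.reg r P.P.X B hB.1
  have key : ∀ d : Fin r, ∃ (σ : MvPolynomial (Fin (r + 1)) ℂ) (D : ℕ), σ ≠ 0 ∧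
      σ.IsHomogeneous D ∧ ∀ q ∈ closure (B \ C d), eval (P.hx q) σ = 0 := fun d => by
    obtain ⟨I, hI⟩ := idl r P.P (C d) (k1 d)
    obtain ⟨V, π, -, -, a, -⟩ := hR r d P.P B I hB.1 (hI ▸ k3 d)
    obtain ⟨σ, D, b, c, e⟩ := hyp d.2 P V a.hol
    refine ⟨σ, D, b, c, fun q hq => ?_⟩
    rw [← hI, ← a.rng] at hq
    obtain ⟨y, rfl⟩ := hq
    exact e y
  choose σ D a b c using key
  refine ⟨∏ d, σ d, ∑ d, D d, Finset.prod_ne_zero_iff.2 fun d _ => a d,
    IsHomogeneous.prod _ _ _ fun d _ => b d, fun q hq => ?_⟩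
  rw [k4] at hq
  simp only [mem_iUnion, Finset.mem_range] at hq
  obtain ⟨d, hd, hq⟩ := hq
  rw [map_prod]
  rcases (Nat.lt_succ_iff.1 hd).lt_or_eq with h | rfl
  · exact Finset.prod_eq_zero (Finset.mem_univ ⟨d, h⟩) (c ⟨d, h⟩ q hq)
  · obtain ⟨x, hx⟩ := closure_nonempty_iff.1 ⟨q, hq⟩
    obtain ⟨m, h, e, -, k⟩ := k3 d x hx
    obtain rfl : m = 0 := by omega
    obtain ⟨y, y1, y2⟩ := ((hB.freq x).and_eventually k).exists
    exact absurd (y2.2 fun a => a.elim0).1 y1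

end Vale.Agent.P281Z.Gt
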