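import Vale.Agent.P281Z.Gt.SkT

/-!
# P281Z, tools for block III: the nice points of a model of the fibre power
-/

open scoped Manifold ContDiff Topology
open Set Filter Function
open Vale.Agent.P272.K
open Vale.Agent.P277Z (Hol jd at_chart)

noncomputable section

namespace Vale.Agent.P281Z.Gt

namespace Thn

section cm

variable {n k : ℕ} {X : Type} [TopologicalSpace X] [ChartedSpace (Cm n) X]
  [IsManifold 𝓘(ℂ, Cm n) ω X] {x : X}

theorem holA_cm {G : X → Cm k} (h : ∀ i, Hol n (fun y => G y i) x) : HolA n k G x :=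
  HolA.of_hol (AnV.pi h).cont (at_chart _) h

theorem hol_crd (t : Cm k) (i : Fin k) : Hol k (fun s : Cm k => s i) t := hol_chart (at_chart t) i

theorem jd_ne {G : X → Cm n} (h : HolA n n G x) {e : Chart n X} (he : At e x) :
    jd (fun i y => G y i) e x ≠ 0 ↔ Imm n n G x := by
  refine Iff.trans (b := Injective (df G e (chartAt (Cm n) (G x)) x)) ?_
    ⟨Imm.of_chart h he (at_chart _), fun k => k e _ he (at_chart _)⟩
  rw [jd, Ne, LinearMap.det_eq_zero_iff_ker_ne_bot, not_not, LinearMap.ker_eq_bot]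
  rfl

end cm

section top

variable {N p n K : ℕ} {M : Fb N p} {Q : Set M.Y.X} (W : Pw M n K Q)

theorem cont : Continuous W.γ := continuous_iff_continuousAt.2 fun v =>
  (W.tm v).b.cont.prodMk (continuousAt_pi.2 fun j => ((W.tm v).x j).cont)

theorem fp (v : W.V.X) : Fp (W.γ v) := (W.tm v).fp.self_of_nhds

theorem inj {v v' : W.V.X} (h : (W.γ v).1 ∉ Q) (e : W.γ v' = W.γ v) : v' = v :=
  (W.bij _ (fp W v) h).unique e rfl

theorem map_eq (hQ : IsClosed Q) {v : W.V.X} (h : (W.γ v).1 ∉ Q) :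
    map W.γ (𝓝 v) = 𝓝[{q | Fp q}] (W.γ v) := by
  refine le_antisymm (tendsto_nhdsWithin_iff.2 ⟨(cont W).continuousAt, (W.tm v).fp⟩)
    (le_map fun U hU => ?_)
  have k : IsClosed (W.γ '' (interior U)ᶜ) :=
    (isOpen_interior.isClosed_compl.isCompact.image (cont W)).isClosed
  filter_upwards [self_mem_nhdsWithin, nhdsWithin_le_nhds (k.isOpen_compl.mem_nhds
    fun ⟨v', a, b⟩ => a (inj W h b ▸ mem_interior_iff_mem_nhds.2 hU)),
    nhdsWithin_le_nhds ((hQ.isOpen_compl.preimage continuous_fst).mem_nhds h)] with q a b c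
  obtain ⟨v', rfl, -⟩ := W.bij q a c
  exact ⟨v', interior_subset (not_not.1 fun d => b ⟨v', d, rfl⟩), rfl⟩

/-- the lift of a test map through a given point -/
theorem lift {k : ℕ} {T : Type} [TopologicalSpace T] [T2Space T] [SecondCountableTopology T]
    [ChartedSpace (Cm k) T] [IsManifold 𝓘(ℂ, Cm k) ω T] {g : T → Pt M n} {t : T} (hg : Tm k g t)
    {v : W.V.X} (h : (W.γ v).1 ∉ Q) (e : g t = W.γ v) :
    ∃ l : T → W.V.X, l t = v ∧ HolA k K l t ∧ ∀ᶠ s in 𝓝 t, W.γ (l s) = g s :=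
  let ⟨l, a, b⟩ := W.lift k T g t hg (e ▸ h)
  ⟨l, inj W h (b.self_of_nhds.trans e), a, b⟩

theorem sbm (hf : HolM N p M.f) {v : W.V.X} (h : (W.γ v).1 ∉ Q)
    (hs : ∀ x, M.f x = (W.γ v).1 → Sbm N p M.f x) : Sbm K p (fun v => (W.γ v).1) v := by
  choose s a1 a2 a3 using fun j => (hs _ (fp W v j)).sec (hf.at _)
  simp only [fp W v _] at a1 a2 a3
  obtain ⟨l, b1, b2, b3⟩ := lift W (g := fun y => (y, fun j => s j y)) (t := (W.γ v).1)
    ⟨holM_id.at _, a2, eventually_all.2 a3⟩ h (Prod.ext rfl (funext a1))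
  have := Sbm.of_comp (g := fun v => (W.γ v).1) (W.tm _).b b2
    ((sbm_id _).cng (b3.mono fun s k => (congrArg Prod.fst k).symm))
  rwa [b1] at this

end top

variable {p a n : ℕ} {M : Fb (p + a) p} {C : NS M} (W : Pw M n (p + n * a) C.Q)

theorem clo {v : W.V.X} (h : (W.γ v).1 ∉ C.Q) :
    v ∈ closure {v' | (W.γ v').1 = (W.γ v).1 ∧ W.γ v' ∈ C.N n} := by
  have k : (W.γ v).2 ∈ closure (pi univ fun _ => {x' | M.f x' = (W.γ v).1 ∧ x' ∉ C.S}) := by
    rw [closure_pi_set]
    exact fun j _ => fp W v j ▸ C.fib _ ((fp W v j).symm ▸ h)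
  have k' : ((W.γ v).1, (W.γ v).2) ∈ closure {q : Pt M n | (q.1 = (W.γ v).1 ∧ q ∈ C.N n) ∧ Fp q} :=
    map_mem_closure (Continuous.prodMk_right (W.γ v).1) k fun x hx =>
      ⟨⟨rfl, fun j => (hx j trivial).1, h, fun j => (hx j trivial).2⟩, fun j => (hx j trivial).1⟩
  have : ∃ᶠ q in 𝓝[{q | Fp q}] (W.γ v), q.1 = (W.γ v).1 ∧ q ∈ C.N n :=
    frequently_nhdsWithin_iff.2 (mem_closure_iff_frequently.1 k')
  rw [← map_eq W C.thinQ.closed h, frequently_map] at this
  exact mem_closure_iff_frequently.2 this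

theorem conn (hM : M.Ok) {y : M.Y.X} (hy : y ∉ C.Q) :
    IsConnected {v | (W.γ v).1 = y ∧ W.γ v ∈ C.N n} := by
  obtain ⟨F, i, hi, -⟩ := (C.reg y hy).fib rfl hM.fibn.hol hM.snc
  have := hi.conn.2 (C.conn y hy)
  have e : i '' (i ⁻¹' C.S)ᶜ = {x | M.f x = y ∧ x ∉ C.S} := Set.ext fun x =>
    ⟨fun ⟨z, b, c⟩ => c ▸ ⟨hi.fib z, b⟩, fun b => let ⟨z, c⟩ := hi.ex b.1; ⟨z, (c.symm ▸ b.2 : i z ∉ C.S), c⟩⟩
  have h1 : Thin a (i ⁻¹' C.S) := ⟨C.thinS.an.pre hi.hol, fun z => by
    rw [hi.cemb.isInducing.closure_eq_preimage_closure_image, e]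
    exact hi.fib z ▸ C.fib _ ((hi.fib z).symm ▸ hy)⟩
  have h2 := h1.conn.image i hi.hol.cont.continuousOn
  rw [e] at h2
  have h3 := (isConnected_univ_pi.2 fun _ : Fin n => h2).image (Prod.mk y)
    (Continuous.prodMk_right y).continuousOn
  have : CompactSpace {v | (W.γ v).1 = y} :=
    isCompact_iff_compactSpace.1 (isClosed_eq (cont W).fst continuous_const).isCompact
  have h4 := ((cont W).comp continuous_subtype_val).isClosedEmbedding
    (f := fun v : {v | (W.γ v).1 = y} => W.γ v) fun v v' k =>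
      Subtype.ext (inj W (v'.2.symm ▸ hy) k)
  have e' : (fun v : {v | (W.γ v).1 = y} => W.γ v) '' {v | W.γ v ∈ C.N n} =
      Prod.mk y '' pi univ fun _ => {x | M.f x = y ∧ x ∉ C.S} := Set.ext fun q => ⟨by
    rintro ⟨v, b, rfl⟩
    exact ⟨_, fun j _ => ⟨(b.1 j).trans v.2, b.2.2 j⟩, Prod.ext v.2.symm rfl⟩, by
    rintro ⟨x, b, rfl⟩
    obtain ⟨v, c, -⟩ := W.bij (y, x) (fun j => (b j trivial).1) hy
    exact ⟨⟨v, congrArg Prod.fst c⟩, (c.symm ▸ ⟨fun j => (b j trivial).1, hy,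
      fun j => (b j trivial).2⟩ : W.γ v ∈ C.N n), c⟩⟩
  rw [← e'] at h3
  have h5 := IsConnected.image ⟨h3.1.of_image, h4.isInducing.isPreconnected_image.1 h3.2⟩ _
    continuous_subtype_val.continuousOn
  refine (congrArg IsConnected (Set.ext fun v => ?_)).mp h5
  exact ⟨fun ⟨z, b, c⟩ => c ▸ ⟨z.2, b⟩, fun b => ⟨⟨v, b.1⟩, b.2, rfl⟩⟩

theorem jn (hf : HolM (p + a) p M.f) {v : W.V.X} (h : W.γ v ∈ C.N n) {e : Chart (p + n * a) W.V.X}
    {e' : Chart p M.Y.X} (he : At e v) (he' : At e' (W.γ v).1) : C.jn e' W.γ e v ≠ 0 := by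
  let G : M.X.X → Cm (p + a) := fun x => Fin.append (e' (M.f x)) fun i => C.w i x
  have hG : ∀ j, HolA (p + a) (p + a) G ((W.γ v).2 j) := fun j => holA_cm fun i => by
    refine i.addCases (fun c => ?_) fun c => ?_
    · simpa only [G, Fin.append_left] using hf.hol (hol_chart ((h.1 j).symm ▸ he') c)
    · simpa only [G, Fin.append_right] using (C.mr c).hol _ (h.2.2 j)
  have eG : (fun i y => G y i) = Fin.append (fun c x => e' (M.f x) c) C.w := funext fun i =>
    i.addCases (fun c => by simp only [G, Fin.append_left]) fun c => by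
      simp only [G, Fin.append_right]
  choose θ a1 a2 _ _ a3 using fun j => ((jd_ne (hG j) (at_chart _)).1
    (eG ▸ C.et _ (h.2.2 j) _ e' (at_chart _) ((h.1 j).symm ▸ he'))).inv (hG j)
  let A : Cm (p + n * a) → Cm p := fun t c => t (Fin.castAdd _ c)
  let B : Fin n → Cm (p + n * a) → Cm (p + a) := fun j t =>
    Fin.append (A t) fun i => t (Fin.natAdd p (finProdFinEquiv (j, i)))
  have hA : A (C.co e' (W.γ v)) = e' (W.γ v).1 := funext fun c => Fin.append_left _ _ c
  have hB : ∀ j, B j (C.co e' (W.γ v)) = G ((W.γ v).2 j) := fun j => by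
    simp only [B, G, hA, h.1 j]
    simp only [NS.co, Fin.append_right, Equiv.symm_apply_apply]
  have b1 : ∀ j, HolA _ (p + a) (B j) (C.co e' (W.γ v)) := fun j => holA_cm fun i => by
    refine i.addCases (fun c => ?_) fun c => ?_
    · simpa only [B, Fin.append_left] using hol_crd _ _
    · simpa only [B, Fin.append_right] using hol_crd _ _
  have b2 : ∀ j, HolA _ (p + a) (fun t => θ j (B j t)) (C.co e' (W.γ v)) := fun j =>
    HolA.cmp (hB j ▸ a2 j) (b1 j)
  have b3 : A (C.co e' (W.γ v)) ∈ e'.target := hA ▸ he'.mem_target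
  have b4 : ∀ᶠ t in 𝓝 (C.co e' (W.γ v)), ∀ j, G (θ j (B j t)) = B j t :=
    eventually_all.2 fun j => (b1 j).cont.eventually (hB j ▸ a3 j)
  have b5 : ∀ᶠ t in 𝓝 (C.co e' (W.γ v)), ∀ j, At e' (M.f (θ j (B j t))) :=
    eventually_all.2 fun j => (hf.cont.continuousAt.comp (b2 j).cont).eventually
      (at_near (by rw [Function.comp_apply, hB, a1, h.1 j]; exact he'))
  have b6 := holA_symm (F := A) (x := C.co e' (W.γ v)) (fun c => hol_crd _ _) he'.1 b3
  obtain ⟨l, c1, c2, c3⟩ := lift W (g := fun t => (e'.symm (A t), fun j => θ j (B j t)))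
    (t := C.co e' (W.γ v)) ⟨b6, b2, by
      filter_upwards [b4, b5] with t k1 k2 j
      refine (k2 j).left_inv.symm.trans (congrArg e'.symm (funext fun c => ?_))
      simpa only [G, B, Fin.append_left] using congrFun (k1 j) (Fin.castAdd _ c)⟩ h.2.1
    (Prod.ext (by simp only [hA, he'.left_inv]) (funext fun j => by simp only [hB, a1]))
  have d1 : HolA _ (p + n * a) (fun s => C.co e' (W.γ s)) v := holA_cm fun i => by
    refine i.addCases (fun c => ?_) fun c => ?_
    · simpa only [NS.co, Fin.append_left] using (W.tm v).b.hol (hol_chart he' c)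
    · simpa only [NS.co, Fin.append_right] using ((W.tm v).x _).hol ((C.mr _).hol _ (h.2.2 _))
  have d2 := Sbm.of_comp (g := fun s => C.co e' (W.γ s)) (c1.symm ▸ d1) c2 ((sbm_id _).cng (by
    filter_upwards [c3, b4, (AnV.pi (F := A) fun c => hol_crd _ _).cont.eventually
      (e'.open_target.mem_nhds b3)] with t k1 k2 k3
    refine funext fun i => ?_
    rw [k1]
    refine i.addCases (fun c => ?_) fun c => ?_
    · simp only [NS.co, Fin.append_left, e'.right_inv k3, A]
    · simpa only [NS.co, G, B, Fin.append_right, Prod.mk.eta, Equiv.apply_symm_apply] using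
        (congrFun (k2 (finProdFinEquiv.symm c).1) (Fin.natAdd _ (finProdFinEquiv.symm c).2)).symm))
  rw [c1] at d2
  exact (jd_ne d1 he).2 (imm_iff_sbm.2 d2)

end Thn

open Thn in
/-- **THN** -/
theorem thn : THN := fun p a n M C W hM => by
  have h2 : HolM (p + n * a) p fun v => (W.γ v).1 := fun v => (W.tm v).b
  refine ⟨⟨?_, fun v => ?_⟩, h2, fun y => ?_, fun v h e e' => jn W hM.fibn.hol h, fun v h =>
    ⟨sbm W hM.fibn.hol h fun x => (C.reg _ h).sbm hM.fibn.hol hM.snc, clo W h⟩,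
    fun y => conn W hM, fun v => map_eq W C.thinQ.closed⟩
  · refine (congrArg (An _) (Set.ext fun v => ?_)).mp ((C.thinQ.an.pre h2).union
      (An.iUnion fun j => C.thinS.an.pre (f := fun v => (W.γ v).2 j) fun v => (W.tm v).x j))
    simp [NS.N, fp W v, or_iff_not_imp_left]
  · exact closure_minimal (fun v h => closure_mono (fun _ k => not_not.2 k.2) (clo W h))
      isClosed_closure (W.dense v)
  · refine closure_minimal (fun y hy => ?_) (isCompact_range h2.cont).isClosed (C.thinQ.dense y)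
    obtain ⟨x, rfl⟩ := (C.conn y hy).nonempty
    obtain ⟨v, k, -⟩ := W.bij (dg n x) (fun _ => rfl) hy
    exact ⟨v, congrArg Prod.fst k⟩

end Vale.Agent.P281Z.Gt
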