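import Vale.Agent.P281Z.Gl.Bd
import Vale.Agent.P281Z.Gl.Thn
import Vale.Agent.P281Z.Gl.Cov
import Vale.Agent.P281Z.Gl.Sieg
import Vale.Agent.P281Z.An.Crit
import Vale.Agent.P277Z.Hir.All

/-!
# P281Z, tools for block III: the statements without hypotheses
-/

namespace Vale.Agent.P281Z.Gt

theorem rsR : Rs.RES := Rs.res_of P277Z.Hir.stMain Rs.clo

theorem resR : RES := Rs.res' rsR

theorem remR : REM := rem_of_res resR

theorem genR : GEN := Ana.gen_of remR Ana.crit

theorem vert : VERT := vert_of rsR genR

theorem cov : COV := cov_of rsR genR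

theorem merf : MERF := merf_of resR

theorem pw : PW := pw_of rsR

theorem dom : DOM := dom_of resR

theorem sieg : SIEG := sieg_of resR

end Vale.Agent.P281Z.Gt
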