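import Vale.Agent.P281Z.Gt.Defs
import Vale.Agent.P281Z.Mf.Prod
import Vale.Agent.P281Z.Rs.Clo

/-!
# P281Z, tools for block III: models of the fibre powers
-/

open scoped Manifold ContDiff Topology
open Set Filter
open Vale.Agent.P272.K

noncomputable section

namespace Vale.Agent.P281Z.Gt

variable {N p a n K : ℕ} {M : Fb N p} {Q : Set M.Y.X}

theorem Pw.hol (P : Pw M n K Q) : HolM K p fun v => (P.γ v).1 := fun v => (P.tm v).b

theorem Pw.holx (P : Pw M n K Q) (j : Fin n) : HolM K N fun v => (P.γ v).2 j :=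
  fun v => (P.tm v).x j

theorem Pw.fp (P : Pw M n K Q) (v : P.V.X) : Fp (P.γ v) := (P.tm v).fp.self_of_nhds

theorem Pw.thin (P : Pw M n K Q) (hQ : Thin p Q) : Thin K {v | (P.γ v).1 ∈ Q} :=
  ⟨hQ.1.pre P.hol, P.dense⟩

namespace PwA

/-- no factor -/
def zero [ConnectedSpace M.Y.X] (hY : M.Y.Kah) (hQ : Thin p Q) : Pw M 0 p Q where
  V := M.Y
  γ y := (y, Fin.elim0)
  tm v := ⟨holM_id.at v, fun j => j.elim0, .of_forall fun _ j => j.elim0⟩
  conn := inferInstance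
  kah := hY
  dense := hQ.2
  bij q _ _ := ⟨q.1, Prod.ext rfl (Subsingleton.elim _ _), fun _ h => congrArg Prod.fst h⟩
  lift _ _ _ _ _ _ _ g _ h _ :=
    ⟨fun s => (g s).1, h.b, .of_forall fun _ => Prod.ext rfl (Subsingleton.elim _ _)⟩

theorem succ (hR : Rs.RES) (hN : N = p + a) (hf : HolM N p M.f) (hX : M.X.Kah) (hQ : Thin p Q)
    (hs : ∀ x, M.f x ∉ Q → Sbm N p M.f x) (hc : ∀ y ∉ Q, IsConnected (M.f ⁻¹' {y}))
    (P : Pw M n K Q) : Nonempty (Pw M (n + 1) (K + a) Q) := by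
  have hZ : An (K + N) {z : (P.V.prod M.X).X | M.f (P.V.p2 M.X z) ∈ Q} :=
    hQ.1.pre (hf.comp hol_p2)
  obtain ⟨I, hI, -⟩ := Rs.idl _ _ _ hZ
  obtain ⟨R⟩ := hR (K + N) (K + a) (P.V.prod M.X) (fp (fun v => (P.γ v).1) M.f) I (fp_an P.hol hf)
    (by
      rw [hI]
      exact fp_subM (by omega) P.hol hf hZ.closed.isOpen_compl fun z hz => .inr (hs _ hz.2))
  have ho := R.ovr
  rw [hI] at ho
  let w : R.V.X → P.V.X := fun v => P.V.p1 M.X (R.π v)
  let u : R.V.X → M.X.X := fun v => P.V.p2 M.X (R.π v)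
  have hw : HolM (K + a) K w := hol_p1.comp ho.hol
  have hu : HolM (K + a) N u := hol_p2.comp ho.hol
  have h0 : ∀ v, (P.γ (w v)).1 = M.f (u v) := ho.maps
  have hd : Dense {v | (P.γ (w v)).1 ∉ Q} := by
    simp only [h0]
    exact ho.dense
  have one : ∀ v x, (P.γ v).1 = M.f x → (P.γ v).1 ∉ Q → ∃! v', w v' = v ∧ u v' = x :=
    fun v x k1 k2 => (existsUnique_congr fun v' => ⟨fun k => ⟨congrArg (P.V.p1 M.X) k,
      congrArg (P.V.p2 M.X) k⟩, fun k => prod_ext k.1 k.2⟩).1 (ho.one (P.V.pair M.X v x) k1 (k1 ▸ k2 :))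
  refine ⟨⟨R.V, fun v => ((P.γ (w v)).1, Fin.cons (u v) (P.γ (w v)).2), fun v =>
    ⟨(P.hol.comp hw).at v, Fin.cases (hu.at v) fun j => ((P.holx j).comp hw).at v,
      .of_forall fun s => Fin.cases (h0 s).symm (P.fp (w s))⟩, ?_, R.kah (P.kah.prod hX), hd,
    fun q h1 h2 => ?_, fun k T _ _ _ _ _ g t h1 h2 => ?_⟩⟩
  · have := P.conn
    refine connectedSpace_iff_univ.2 (conn_pre hw.cont (conn_all hw.cont (P.thin hQ) hd
      fun v hv => ?_) isClosed_univ isConnected_univ)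
    obtain ⟨F, i, hi⟩ := fib_emb hN hf fun x (hx : M.f x = (P.γ v).1) => hs x (hx ▸ hv)
    have := hi.conn.2 (hc _ hv)
    choose l hl using fun x => (one v (i x) (hi.fib x).symm hv).exists
    have h1 : ∀ x, R.π (l x) = P.V.pair M.X v (i x) := fun x => prod_ext (hl x).1 (hl x).2
    rw [show w ⁻¹' {v} = range l from ?_]
    · refine isConnected_range (HolM.cont (n := a) (p := K + a) fun x => ho.lift_at ?_ ?_)
      · rw [h1]
        exact fun k => hv (show (P.γ v).1 ∈ Q from hi.fib x ▸ show M.f (i x) ∈ Q from k)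
      · simpa only [h1] using ((holM_const v).pair hi.hol).at x
    · refine Subset.antisymm (fun v' (hv' : w v' = v) => ?_) (range_subset_iff.2 fun x => (hl x).1)
      obtain ⟨x, hx⟩ := hi.ex (y := u v') ((h0 v').symm.trans (by rw [hv']))
      exact ⟨x, (one v (i x) (hi.fib x).symm hv).unique (hl x) ⟨hv', hx.symm⟩⟩
  · obtain ⟨v, k1, k2⟩ := P.bij (q.1, Fin.tail q.2) (fun j => h1 j.succ) h2
    obtain ⟨v', k3, k4⟩ := one v (q.2 0) (by rw [k1, h1 0]) (by rwa [k1])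
    refine ⟨v', by simp only [k3.1, k3.2, k1, Fin.cons_self_tail], fun v'' k => k4 _ ⟨k2 _ ?_, ?_⟩⟩
    · rw [← k]
      rfl
    · rw [← k]
      rfl
  · obtain ⟨l, k1, k2⟩ := P.lift k T (fun s => ((g s).1, Fin.tail (g s).2)) t
      ⟨h1.b, fun j => h1.x j.succ, h1.fp.mono fun s hs j => hs j.succ⟩ h2
    have k3 : ∀ᶠ s in 𝓝 t, ∃ v', w v' = l s ∧ u v' = (g s).2 0 := by
      filter_upwards [k2, h1.fp, h1.b.cont.eventually (hQ.closed.isOpen_compl.mem_nhds h2)]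
        with s b1 b2 b3 using (one _ _ (by rw [b1, b2 0]) (by rwa [b1])).exists
    obtain ⟨l', k4⟩ := k3.choice
    have k5 : ∀ᶠ s in 𝓝 t, P.V.pair M.X (l s) ((g s).2 0) = R.π (l' s) :=
      k4.mono fun s hs => (prod_ext hs.1 hs.2).symm
    refine ⟨l', ho.lift_at ?_ ((k1.pair (h1.x 0)).cng k5), ?_⟩
    · rw [← k5.self_of_nhds]
      exact fun k => h2 (h1.fp.self_of_nhds 0 ▸ show M.f ((g t).2 0) ∈ Q from k)
    · filter_upwards [k2, k4] with s b1 b2
      simp only [b2.1, b2.2, b1, Fin.cons_self_tail]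

end PwA

/-- models of the fibre powers exist -/
theorem exists_pw (hR : Rs.RES) (hN : N = p + a) [ConnectedSpace M.Y.X] (hf : HolM N p M.f)
    (hX : M.X.Kah) (hY : M.Y.Kah) (hQ : Thin p Q) (hs : ∀ x, M.f x ∉ Q → Sbm N p M.f x)
    (hc : ∀ y ∉ Q, IsConnected (M.f ⁻¹' {y})) (n : ℕ) :
    ∀ K, K = p + n * a → Nonempty (Pw M n K Q) := by
  induction n with
  | zero =>
    intro K h
    rw [h, zero_mul]
    exact ⟨PwA.zero hY hQ⟩
  | succ n ih =>
    intro K h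
    rw [h, add_one_mul, ← add_assoc]
    exact (ih _ rfl).elim (PwA.succ hR hN hf hX hQ hs hc)

end Vale.Agent.P281Z.Gt
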