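import Vale.Agent.P281Z.Gt.SkT
import Vale.Agent.P281Z.Gl.Pw
import Vale.Agent.P281Z.Lf.Polar
import Vale.Agent.P281Z.Fi.Mgr
import Vale.Agent.P281Z.Pb.Api2
import Vale.Agent.P281Z.Rs.Res

/-!
# P281Z, tools for block III: GROW, MERT, ZERO, MERF, PW
-/

open scoped Manifold ContDiff Topology
open Set Filter
open Vale.Agent.P272.K
open Vale.Agent.P277Z (Hol Mer Nz gen gen_of_nhds nz_of_gen)
open Vale.Agent.P281Z.Lf.Pol (mer_cop cop_unit nul)

noncomputable section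

namespace Vale.Agent.P281Z.Gt

section

variable {n : ℕ} {W : Type} [TopologicalSpace W] [ChartedSpace (Cm n) W]
  [IsManifold 𝓘(ℂ, Cm n) ω W] {x : W} {g h : W → ℂ}

/-- a fraction whose denominator does not vanish at the points where `g` is holomorphic -/
theorem mer_frac (hg : Mer n g x) : ∃ u v : W → ℂ, Hol n u x ∧ Hol n v x ∧ Nz v x ∧
    ∀ᶠ y in 𝓝 x, Hol n g y → v y ≠ 0 ∧ g y * v y = u y :=
  let ⟨u, v, e⟩ := mer_cop hg
  let ⟨hu, hv, h0, _⟩ := e.self_of_nhds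
  ⟨u, v, hu, hv, h0, e.mono fun _ a b => cop_unit a.1 a.2.1 a.2.2.2.2 b a.2.2.2.1⟩

theorem grow' (hg : Mer n g x) (hh : Hol n h x) (k : ∀ᶠ y in 𝓝 x, h y ≠ 0 → Hol n g y) :
    ∃ (K : ℕ) (g' : W → ℂ), Hol n g' x ∧ ∀ᶠ y in 𝓝 x, h y ≠ 0 → g' y = h y ^ K * g y := by
  obtain ⟨u, v, hu, hv, h0, e⟩ := mer_frac hg
  obtain ⟨K, c, hc, k2⟩ := nul hv hh h0 (by
    filter_upwards [e, k] with y a b c using by_contra fun d => (a (b d)).1 c)
  refine ⟨K, fun y => c y * u y, hc.mul hu, ?_⟩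
  filter_upwards [e, k, k2] with y a b c d
  rw [c, ← (a (b d)).2]
  ring

/-- a function which is a fraction off the zeros of `h` -/
theorem mer_of_mul {u : W → ℂ} (hh : Hol n h x) (h0 : Nz h x) (hu : Hol n u x) (K : ℕ)
    (k : ∀ᶠ y in 𝓝 x, h y ≠ 0 → u y = h y ^ K * g y) : Mer n g x :=
  ⟨u, fun y => h y ^ K, hu, hh.pow K, nz_of_gen ((h0.gen hh).mono fun _ => pow_ne_zero K), by
    filter_upwards [h0.gen hh, gen_of_nhds k] with y a b using (mul_comm _ _).trans (b a).symm⟩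

omit [ChartedSpace (Cm n) W] [IsManifold 𝓘(ℂ, Cm n) ω W] in
/-- one of the equations does not vanish identically -/
theorem ex_nz {ι : Type} [Finite ι] {a : ι → W → ℂ} {P : W → Prop} (h1 : ∃ᶠ y in 𝓝 x, ¬ P y)
    (h2 : ∀ᶠ y in 𝓝 x, P y ↔ ∀ i, a i y = 0) : ∃ i, Nz (a i) x := by
  by_contra! c
  refine h1 ?_
  filter_upwards [h2, eventually_all.2 fun i => not_not.1 (c i)] with y k1 k2 k3 using k3 (k1.2 k2)

end

theorem grow : GROW := fun _ _ _ _ _ _ _ _ _ _ hg hh _ k => grow' hg hh k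

theorem mert : MERT := by
  rintro n W _ _ _ _ _ k T _ _ _ _ _ S g γ t ⟨m, h, h1, h2⟩ hg hS hγ hf
  obtain ⟨i, hi⟩ := ex_nz (a := fun i s => h i (γ s)) hf (hγ.cont.eventually h2)
  obtain ⟨K, g', k1, k2⟩ := grow' hg (h1 i) (by
    filter_upwards [h2, hS] with y a b c using b fun d => c (a.1 d i))
  exact mer_of_mul (hγ.hol (h1 i)) hi (hγ.hol k1) K (hγ.cont.eventually k2)

theorem zero : ZERO := by
  rintro n V S Z hV hS h ⟨x₀, k1, k2⟩
  refine An.thin (fun x => ?_) fun c => (c.ge (mem_univ x₀)).elim k1 k2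
  obtain ⟨g, hg, e⟩ := h x
  obtain ⟨u, v, hu, -, -, e'⟩ := mer_frac hg
  obtain ⟨m, a, h1, h2⟩ := hS.1 x
  refine ⟨m, fun i y => a i y * u y, fun i => (h1 i).mul hu, ?_⟩
  filter_upwards [e, e', h2] with y b c d
  by_cases hy : y ∈ S
  · exact iff_of_true (.inl hy) fun i => by rw [d.1 hy i, zero_mul]
  obtain ⟨i, hi⟩ := not_forall.1 (mt d.2 hy)
  obtain ⟨c1, c2⟩ := c (b hy).1
  rw [mem_union, or_iff_right hy, (b hy).2, ← c2]
  exact ⟨fun k j => by rw [k, zero_mul, mul_zero], fun k =>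
    (mul_eq_zero.1 ((mul_eq_zero.1 (k i)).resolve_left hi)).resolve_right c1⟩

theorem merf_of (hR : RES) : MERF := fun _ _ _ _ _ P hS hg =>
  let ⟨V', π, φ, a, b, c, d⟩ := Fi.merm hR P hS (fun i => (hg i).mer) fun i => (hg i).hol
  ⟨V', π, φ, a, b, fun k => d k P.kah, c⟩

theorem pw_of (hR : Rs.RES) : PW := fun _ _ n _ _ h hX hY hQ k =>
  have := h.connY
  exists_pw hR rfl h.fibn.hol hX hY hQ (fun _ hx => (k _ hx).1.sbm h.fibn.hol h.snc rfl)
    (fun y hy => (k y hy).2) n _ rfl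

end Vale.Agent.P281Z.Gt
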