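import Vale.Agent.P281Z.Gl.Loc
import Vale.Agent.P281Z.Sc.Riem

/-!
# P281Z, tools for block III: NORM, LDESC
-/

open scoped Manifold ContDiff Topology
open Set Filter
open Vale.Agent.P272.K
open Vale.Agent.P277Z (Hol Mer Nz hol_const nz_of_ne nz_of_gen)
open Vale.Agent.P281Z.Lf.Pol (bdd)

noncomputable section

namespace Vale.Agent.P281Z.Gt

/-- a function of moderate growth along the zeros of `h` is meromorphic -/
theorem mer_of_bd {n : ℕ} {W : Type} [TopologicalSpace W] [ChartedSpace (Cm n) W]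
    [IsManifold 𝓘(ℂ, Cm n) ω W] {x : W} {g h : W → ℂ} (hh : Hol n h x) (h0 : Nz h x) (K : ℕ)
    {C : ℝ} (k : ∀ᶠ y in 𝓝 x, h y ≠ 0 → Hol n g y ∧ ‖h y ^ K * g y‖ ≤ C) : Mer n g x :=
  let ⟨_, h1, h2⟩ := riem (f := fun y => h y ^ K * g y) (C := C) hh h0 (by
    filter_upwards [k, hh.near] with y a b c using ⟨(b.pow K).mul (a c).1, (a c).2⟩)
  mer_of_mul hh h0 h1 K h2

variable {n p : ℕ} {V : Mf n} {Y : Mf p} {f : V.X → Y.X} {Q : Set Y.X} {F : V.X → ℂ} {y : Y.X}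

namespace BdA

variable (f F y) in
/-- `h F` is bounded near the points of `s` over `y` -/
def B (s : Set V.X) (h : Y.X → ℂ) : Prop :=
  ∃ C : ℝ, ∀ x ∈ s, f x = y → ∀ᶠ x' in 𝓝 x, h (f x') ≠ 0 → ‖h (f x') * F x'‖ ≤ C

theorem B.mul {s : Set V.X} {h h' : Y.X → ℂ} (hf : Continuous f) (k : B f F y s h)
    (hh : Hol p h' y) : B f F y s fun z => h' z * h z := by
  obtain ⟨C, k⟩ := k
  obtain ⟨C', h1, h2⟩ := bdd hh
  refine ⟨C' * C, fun x hx e => ?_⟩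
  filter_upwards [k x hx e, hf.continuousAt.eventually (e.symm ▸ h2)] with x' a b c
  rw [mul_assoc, norm_mul]
  exact mul_le_mul b (a (right_ne_zero_of_mul c)) (norm_nonneg _) h1.le

end BdA

open BdA in
/-- a uniform bound on the fibres near `y` -/
theorem fib_bd (hf : HolM n p f) (hQ : Thin p Q) (hd : Dense (f ⁻¹' Q)ᶜ)
    (hm : ∀ x, f x = y → Mer n F x) (hh : ∀ᶠ z in 𝓝 y, z ∉ Q → ∀ x, f x = z → Hol n F x) :
    ∃ (h : Y.X → ℂ) (C : ℝ), Hol p h y ∧ Nz h y ∧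
      ∀ᶠ z in 𝓝 y, h z ≠ 0 → z ∉ Q ∧ ∀ x, f x = z → ‖h z * F x‖ ≤ C := by
  have key : ∃ h, Hol p h y ∧ Nz h y ∧ B f F y (f ⁻¹' {y}) h := by
    refine (isClosed_singleton.preimage hf.cont).isCompact.induction_on
      (p := fun s => ∃ h, Hol p h y ∧ Nz h y ∧ B f F y s h)
      ⟨_, hol_const 1 y, nz_of_ne one_ne_zero, 0, fun _ h => h.elim⟩
      (fun s t k ⟨h, a, b, C, c⟩ => ⟨h, a, b, C, fun x hx => c x (k hx)⟩)
      (fun s t ⟨h, a, b, c⟩ ⟨h', a', b', c'⟩ => ?_) fun x hx => ?_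
    · obtain ⟨C, d⟩ := c.mul hf.cont a'
      obtain ⟨C', d'⟩ := c'.mul hf.cont a
      refine ⟨_, a'.mul a, b'.mul a' a b, max C C', fun x hx e => hx.elim (fun k => ?_) fun k => ?_⟩
      · exact (d x k e).mono fun _ u v => (u v).trans (le_max_left _ _)
      · simp only [mul_comm (h' _) (h _)]
        exact (d' x k e).mono fun _ u v => (u v).trans (le_max_right _ _)
    · obtain rfl : f x = y := hx
      obtain ⟨m, a, h1, h2⟩ := hQ.1 (f x)
      have hc := hf.cont.continuousAt (x := x)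
      obtain ⟨i, hi⟩ := ex_nz (a := fun i x' => a i (f x')) (P := fun x' => f x' ∈ Q)
        (mem_closure_iff_frequently.1 (hd x)) (hc.eventually h2)
      obtain ⟨K, g, k1, k2⟩ := grow' (hm x rfl) (hf.hol (h1 i)) (by
        filter_upwards [hc.eventually h2, hc.eventually hh] with x' b c d
          using c (fun e => d (b.1 e i)) x' rfl)
      obtain ⟨C, -, k3⟩ := bdd ((hf.hol (h1 i)).mul k1)
      refine ⟨_, mem_nhdsWithin_of_mem_nhds (k2.and k3).eventually_nhds,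
        fun z => a i z ^ (K + 1), (h1 i).pow _, nz_of_gen ((Nz.gen (fun c => hi (hc.eventually c))
          (h1 i)).mono fun _ => pow_ne_zero _), C, fun x' hx' _ => Eventually.mono hx' ?_⟩
      rintro z ⟨b, c⟩ d
      rwa [b (ne_zero_pow K.succ_ne_zero d), ← mul_assoc, ← pow_succ'] at c
  obtain ⟨h, h1, h2, h3⟩ := key
  obtain ⟨h', k1, k2, k3⟩ := hQ.nz y
  obtain ⟨C, h4⟩ := h3.mul hf.cont k1
  refine ⟨_, C, k1.mul h1, k2.mul k1 h1 h2, ?_⟩
  filter_upwards [k3, hf.cont.isClosedMap.eventually_nhds_fiber y fun x hx => h4 x hx hx]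
    with z a b c
  refine ⟨fun e => left_ne_zero_of_mul c (a e), fun x hx => ?_⟩
  subst hx
  exact b x rfl c

theorem ldesc : LDESC := by
  intro n p V Y f Q g y hf hs hQ hd hg hm
  obtain ⟨h, C, h1, h2, h3⟩ := fib_bd hf hQ hd hm
    (hg.mono fun z a b x hx => hf.hol (hx.symm ▸ a b))
  refine mer_of_bd h1 h2 1 (C := C) ?_
  filter_upwards [h3, hg] with z a b c
  obtain ⟨x, rfl⟩ := hs z
  exact ⟨b (a c).1, (pow_one (h (f x))).symm ▸ (a c).2 x rfl⟩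

theorem norm : NORM := by
  intro n d V Y f Q g y hf hQ hd hc hm hh
  have key : ∀ z ∉ Q, ∃ σ : Fin d → Y.X → V.X, (∀ i, HolA n n (σ i) z ∧ f (σ i z) = z) ∧
      ∀ᶠ w in 𝓝 z, ∏ i, g (σ i w) = ∏ᶠ x ∈ f ⁻¹' {w}, g x ∧
        ∑ i, g (σ i w) = ∑ᶠ x ∈ f ⁻¹' {w}, g x := fun z hz => by
    obtain ⟨σ, h1, h2⟩ := hc z hz
    refine ⟨σ, fun i => ⟨h1 i, h2.self_of_nhds.2.le (mem_range_self i)⟩, h2.mono fun w a => ?_⟩
    rw [← a.2, finprod_mem_range a.1, finsum_mem_range a.1, finprod_eq_prod_of_fintype,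
      finsum_eq_sum_of_fintype]
    exact ⟨rfl, rfl⟩
  have k1 : ∀ᶠ z in 𝓝 y, z ∉ Q → Hol n (fun w => ∏ᶠ x ∈ f ⁻¹' {w}, g x) z ∧
      Hol n (fun w => ∑ᶠ x ∈ f ⁻¹' {w}, g x) z := hh.mono fun z a hz =>
    let ⟨σ, h1, h2⟩ := key z hz
    have b : ∀ i, Hol n (fun w => g (σ i w)) z := fun i => (h1 i).1.hol (a hz _ (h1 i).2)
    ⟨(Hol.prod _ fun i _ => b i).congr (h2.mono fun _ k => k.1),
      (Hol.sum _ fun i _ => b i).congr (h2.mono fun _ k => k.2)⟩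
  obtain ⟨h, C, h1, h2, h3⟩ := fib_bd hf hQ hd hm hh
  refine ⟨mer_of_bd h1 h2 d (C := ∏ _i : Fin d, C) ?_,
    mer_of_bd h1 h2 1 (C := ∑ _i : Fin d, C) ?_, k1⟩
  all_goals
    filter_upwards [h3, k1] with z a b c
    obtain ⟨σ, k2, k3⟩ := key z (a c).1
  · refine ⟨(b (a c).1).1, ?_⟩
    rw [← k3.self_of_nhds.1, ← Fin.prod_const, ← Finset.prod_mul_distrib, norm_prod]
    exact Finset.prod_le_prod (fun _ _ => norm_nonneg _) fun i _ => (a c).2 _ (k2 i).2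
  · refine ⟨(b (a c).1).2, ?_⟩
    rw [← k3.self_of_nhds.2, pow_one, Finset.mul_sum]
    exact norm_sum_le_of_le _ fun i _ => (a c).2 _ (k2 i).2

end Vale.Agent.P281Z.Gt
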